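import Mathlib

/-! Existence of a nonzero C*-algebra generated by isometries with orthogonal ranges. -/

open scoped InnerProductSpace ENNReal

namespace Vale.Agent.P133OU

universe u

/-- A nonzero Hilbert space with a sequence of isometries with orthogonal ranges. -/
theorem exists_shifts : ∃ (B : Type u) (_ : CStarAlgebra B) (_ : Nontrivial B) (s : ℕ → B),
    ∀ i j, star (s i) * s j = if i = j then 1 else 0 := by
  classical
  let H : Type u := lp (fun _ : ULift.{u} ℕ => ℂ) 2
  let b : HilbertBasis (ULift.{u} ℕ) ℂ H := default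
  let σ : ℕ → ULift.{u} ℕ → ULift.{u} ℕ := fun i a => ⟨Nat.pair i a.down⟩
  have hσ : ∀ i j a c, σ i a = σ j c → i = j ∧ a = c := fun i j a c h => by
    have h1 : Nat.pair i a.down = Nat.pair j c.down := congrArg ULift.down h
    rw [Nat.pair_eq_pair] at h1
    exact ⟨h1.1, ULift.ext _ _ h1.2⟩
  have ho : ∀ i, Orthonormal ℂ (fun a => b (σ i a)) := fun i =>
    b.orthonormal.comp (σ i) fun a c h => (hσ i i a c h).2
  let V : ℕ → H →ₗᵢ[ℂ] H := fun i => (ho i).orthogonalFamily.linearIsometry
  have hV : ∀ i (f : H), HasSum (fun a => f a • b (σ i a)) (V i f) := fun i f =>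
    (ho i).orthogonalFamily.hasSum_linearIsometry f
  have hne : b ⟨0⟩ ≠ 0 := b.orthonormal.ne_zero _
  have : Nontrivial H := ⟨⟨_, _, hne⟩⟩
  refine ⟨H →L[ℂ] H, inferInstance, inferInstance, fun i => (V i).toContinuousLinearMap,
    fun i j => ?_⟩
  split_ifs with h
  · subst h
    exact (V i).adjoint_comp_self
  · refine ContinuousLinearMap.ext fun y => ext_inner_left ℂ fun x => ?_
    rw [ContinuousLinearMap.star_eq_adjoint, ContinuousLinearMap.mul_apply,
      ContinuousLinearMap.adjoint_inner_right, ContinuousLinearMap.zero_apply, inner_zero_right]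
    change ⟪V i x, V j y⟫_ℂ = 0
    have h1 : ∀ c, ⟪b (σ j c), V i x⟫_ℂ = 0 := fun c => by
      have h2 := (hV i x).mapL (innerSL ℂ (b (σ j c)))
      refine h2.unique ?_
      convert hasSum_zero with a
      rw [innerSL_apply_apply, inner_smul_right,
        b.orthonormal.inner_eq_zero fun e => h (hσ _ _ _ _ e).1.symm, mul_zero]
    have h3 := (hV j y).mapL (innerSL ℂ (V i x))
    refine h3.unique ?_
    convert hasSum_zero with a
    rw [innerSL_apply_apply, inner_smul_right, inner_eq_zero_symm.1 (h1 a), mul_zero]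

/-- The closed algebra generated by a family is generated by it as an algebra on its own. -/
theorem exists_gen {B : Type u} [CStarAlgebra B] {ι : Type*} (s : ι → B) :
    ∃ (O : Type u) (_ : CStarAlgebra O) (r : ι → O) (φ : O →⋆ₐ[ℂ] B), Function.Injective φ ∧
      (∀ i, φ (r i) = s i) ∧ Dense (StarAlgebra.adjoin ℂ (Set.range r) : Set O) := by
  let G := (StarAlgebra.adjoin ℂ (Set.range s)).topologicalClosure
  have hcl : IsClosed (G : Set B) := StarSubalgebra.isClosed_topologicalClosure _
  have hm : ∀ k, s k ∈ G := fun k =>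
    StarSubalgebra.le_topologicalClosure _ (StarAlgebra.subset_adjoin ℂ _ ⟨k, rfl⟩)
  refine ⟨G, inferInstance, fun k => ⟨s k, hm k⟩, G.subtype, Subtype.val_injective,
    fun _ => rfl, fun z => ?_⟩
  have h1 : StarAlgebra.adjoin ℂ (Set.range s) ≤
      (StarAlgebra.adjoin ℂ (Set.range fun k => (⟨s k, hm k⟩ : G))).map G.subtype :=
    StarAlgebra.adjoin_le (by
      rintro _ ⟨k, rfl⟩
      exact ⟨⟨s k, hm k⟩, StarAlgebra.subset_adjoin ℂ _ ⟨k, rfl⟩, rfl⟩)
  rw [Metric.mem_closure_iff]
  intro ε hε
  obtain ⟨w, hw, hw'⟩ := Metric.mem_closure_iff.mp z.2 ε hε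
  obtain ⟨y, hy, rfl⟩ := h1 hw
  exact ⟨y, hy, hw'⟩

/-- Existence of the Cuntz algebra with infinitely many generators. -/
theorem exists_O : ∃ (O : Type u) (_ : CStarAlgebra O) (_ : Nontrivial O) (s : ℕ → O),
    (∀ i j, star (s i) * s j = if i = j then 1 else 0) ∧
      Dense (StarAlgebra.adjoin ℂ (Set.range s) : Set O) := by
  obtain ⟨B, _, _, s, hs⟩ := exists_shifts.{u}
  obtain ⟨O, _, r, φ, h1, h2, h3⟩ := exists_gen s
  refine ⟨O, inferInstance, φ.toRingHom.domain_nontrivial, r, fun i j => h1 ?_, h3⟩
  rw [map_mul, map_star, h2, h2, hs]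
  split_ifs <;> simp

/-- Such an algebra is separable. -/
theorem separable_gen {O : Type u} [CStarAlgebra O] {ι : Type*} [Countable ι] {s : ι → O}
    (hg : Dense (StarAlgebra.adjoin ℂ (Set.range s) : Set O)) :
    TopologicalSpace.SeparableSpace O := by
  have h0 : (Set.range s ∪ star (Set.range s)).Countable := by
    refine (Set.countable_range s).union ?_
    rw [← Set.image_star]
    exact (Set.countable_range s).image _
  have h1 : ((Submonoid.closure (Set.range s ∪ star (Set.range s)) : Submonoid O) :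
      Set O).Countable := by
    have := h0.to_subtype
    refine (Set.countable_range fun l : List ↥(Set.range s ∪ star (Set.range s)) =>
      (l.map Subtype.val).prod).mono fun x hx => ?_
    obtain ⟨l, hl, rfl⟩ := Submonoid.exists_list_of_mem_closure hx
    exact ⟨l.attachWith _ hl, by simp⟩
  have h2 := h1.isSeparable.span (R := ℂ)
  rw [← Algebra.adjoin_eq_span] at h2
  rw [← TopologicalSpace.isSeparable_univ_iff, ← hg.closure_eq]
  exact TopologicalSpace.IsSeparable.closure h2

end Vale.Agent.P133OU
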