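import Vale.Agent.P133OU.Uni
import Vale.Agent.P133OU.Exist
import Vale.Agent.P133OD.Dom

/-! Existence, uniqueness, universal property and simplicity of the Cuntz algebra with infinitely
many generators. -/

namespace Vale.Agent.P133OU

universe u

theorem dom1 : Dom1.{u} := by
  intro B _ s t hs ht n ε hε
  have ct : ∀ r : ℕ → B, (∀ i j, star (r i) * r j = if i = j then 1 else 0) →
      P133OD.CT (1 : B) (fun i : Fin n => r i) := fun r hr =>
    ⟨IsStarProjection.one B, fun i j => by rw [hr]; simp only [Fin.ext_iff], fun i => one_mul _⟩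
  obtain ⟨d, h1, -, -, h2⟩ := P133OD.exists_dom (ct s hs) (ct t ht) (fun _ : Unit => s n)
    (fun a b => by rw [hs, if_pos rfl, if_pos rfl]) (fun _ => one_mul _)
    (fun _ i => by rw [hs, if_neg i.2.ne]) hε
  exact ⟨d (), by rw [h1, if_pos rfl], fun i hi => h2 () ⟨i, hi⟩⟩

/-- Universal property. -/
theorem univ {O C : Type u} [CStarAlgebra O] [Nontrivial O] [CStarAlgebra C] {s : ℕ → O}
    {t : ℕ → C} (hs : ∀ i j, star (s i) * s j = if i = j then 1 else 0)
    (hg : Dense (StarAlgebra.adjoin ℂ (Set.range s) : Set O))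
    (ht : ∀ i j, star (t i) * t j = if i = j then 1 else 0) :
    ∃ φ : O →⋆ₐ[ℂ] C, ∀ k, φ (s k) = t k := exists_hom dom1 hs hg ht

/-- Uniqueness. -/
theorem uniq {O C : Type u} [CStarAlgebra O] [Nontrivial O] [CStarAlgebra C] [Nontrivial C]
    {s : ℕ → O} {t : ℕ → C} (hs : ∀ i j, star (s i) * s j = if i = j then 1 else 0)
    (hg : Dense (StarAlgebra.adjoin ℂ (Set.range s) : Set O))
    (ht : ∀ i j, star (t i) * t j = if i = j then 1 else 0)
    (hg' : Dense (StarAlgebra.adjoin ℂ (Set.range t) : Set C)) :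
    ∃ e : O ≃⋆ₐ[ℂ] C, ∀ k, e (s k) = t k := exists_equiv dom1 hs hg ht hg'

/-- Simplicity. -/
theorem inj {O C : Type u} [CStarAlgebra O] [CStarAlgebra C] [Nontrivial C] {s : ℕ → O}
    (hs : ∀ i j, star (s i) * s j = if i = j then 1 else 0)
    (hg : Dense (StarAlgebra.adjoin ℂ (Set.range s) : Set O)) (φ : O →⋆ₐ[ℂ] C) :
    Function.Injective φ := hom_injective dom1 hs hg φ

/-- The two ways to say that a set generates. -/
theorem dense_iff {O : Type*} [CStarAlgebra O] (S : StarSubalgebra ℂ O) :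
    Dense (S : Set O) ↔ S.topologicalClosure = ⊤ := by
  rw [dense_iff_closure_eq, ← StarSubalgebra.topologicalClosure_coe]
  exact ⟨fun h => SetLike.coe_injective h, fun h => by rw [h]; rfl⟩

end Vale.Agent.P133OU
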